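import Vale.Agent.P365.T2.H536.Start2
import Vale.Agent.P365.T2.H784.Heavy
import Vale.Agent.P365.T2.H784.Blk
import Vale.Agent.P365.T2.H908.Mono

/-!
# P365-T2, X-KJSTAR, part b: the block energies of 784 at the beginning of the stage `j`

`PhB A V (fB z r) = ∑ k : Fin 3, (4 En f_k + En f_k²)` = energy of the block with centre `z` and
scale `r` (all translates).  START: `Av PhB² ≤ 10¹⁹`, `Av PhB ≤ 10⁷`, every `z`, `r`, `N`;
beginning of the stage `j`: `∑ z, Av Th a C (PhB) ≤ ((2/θ)⁴ 10¹⁹ + C (2/θ)² 10⁷) N²`,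
`∑ z, Av psi a (PhB) ≤ (2/θ)⁴ 10¹⁹ / a * N²`, `θ = th D j`.
-/

set_option linter.all false

namespace P365T2.H536

open Finset MeasureTheory P365T1 P365L P365O P365L.TL Vale.Agent.P365.J376 Matrix Complex
open P365V4.Start77 P365T2.H784

variable {N : ℕ} [NeZero N]

/-- vector form of the block functional -/
def FfB {κ : Type*} (f : κ → Tor N → ℝ) : κ × Fin 2 → Tor N → ℝ := fun q => Ff (f q.1) q.2

theorem sum_En_FfB {κ : Type*} [Fintype κ] {A : Matrix (Tor N) (Tor N) ℝ} (W : Tor N → ℂ)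
    (f : κ → Tor N → ℝ) : ∑ q, En A W (FfB f q) = PhB A W f := by
  rw [Fintype.sum_prod_type]
  unfold PhB
  refine Finset.sum_congr rfl fun k _ => ?_
  exact sum_En_Ff W (f k)

theorem PhB_eq_EnC {κ : Type*} [Fintype κ] {A : Matrix (Tor N) (Tor N) ℝ} (W : Tor N → ℂ)
    (f : κ → Tor N → ℝ) : PhB A W f = H908.EnC A (fun _ => 1) (FfB f) W := by
  rw [← sum_En_FfB]
  unfold H908.EnC
  simp

/-- support of the block -/
def BlS (z : Tor N) (r : ℕ) : Finset (Tor N) := univ.filter fun x => nrm (x - z) < 12 * r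

theorem card_BlS {r : ℕ} (hr : 0 < r) (z : Tor N) : ((BlS z r).card : ℝ) ≤ 576 * (r : ℝ) ^ 2 := by
  have h := card_lt_le (R := 12 * r) (by omega) z
  have e : BlS z r = univ.filter fun x : Tor N => nrm (z - x) < 12 * r := by
    unfold BlS
    ext x
    rw [mem_filter, mem_filter, nrm_sub_comm]
  rw [e]
  refine h.trans (le_of_eq ?_)
  push_cast
  ring

theorem FfB_lip {r : ℕ} (hr : 0 < r) (z x y : Tor N) :
    ∑ q, (FfB (fB z r) q x - FfB (fB z r) q y) ^ 2 ≤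
      (3 / (r : ℝ)) ^ 2 * (nrm (x - y) : ℝ) ^ 2 := by
  have hr' : (0 : ℝ) < r := by exact_mod_cast hr
  rw [Fintype.sum_prod_type]
  have h1 : ∀ k : Fin 3, ∑ i : Fin 2, (FfB (fB z r) (k, i) x - FfB (fB z r) (k, i) y) ^ 2 ≤
      (3 * (1 / (2 * (r : ℝ)))) ^ 2 * (nrm (x - y) : ℝ) ^ 2 := by
    intro k
    refine Ff_lip (f := fB z r k) (abs_fB_le_one z r k) (by positivity) (fun a b => ?_) x y
    refine (fB_lip hr z k a b).trans (le_of_eq ?_)
    ring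
  refine (Finset.sum_le_sum fun k _ => h1 k).trans ?_
  rw [Finset.sum_const, Finset.card_univ, Fintype.card_fin, nsmul_eq_mul]
  have h2 : 0 ≤ (1 / (r : ℝ)) ^ 2 * (nrm (x - y) : ℝ) ^ 2 := by positivity
  have e1 : ((3 : ℕ) : ℝ) * ((3 * (1 / (2 * (r : ℝ)))) ^ 2 * (nrm (x - y) : ℝ) ^ 2) =
      27 / 4 * ((1 / (r : ℝ)) ^ 2 * (nrm (x - y) : ℝ) ^ 2) := by
    push_cast
    field_simp
    ring
  have e2 : (3 / (r : ℝ)) ^ 2 * (nrm (x - y) : ℝ) ^ 2 =
      9 * ((1 / (r : ℝ)) ^ 2 * (nrm (x - y) : ℝ) ^ 2) := by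
    field_simp
    ring
  rw [e1, e2]
  exact mul_le_mul_of_nonneg_right (by norm_num) h2

theorem FfB_const {r : ℕ} (hr : 0 < r) (z : Tor N) (q : Fin 3 × Fin 2) :
    ∀ x ∉ BlS z r, ∀ y ∉ BlS z r, FfB (fB z r) q x = FfB (fB z r) q y := by
  intro x hx y hy
  obtain ⟨k, i⟩ := q
  have h0 : ∀ a ∉ BlS z r, fB z r k a = 0 := by
    intro a ha
    refine fB_zero hr z k ?_
    unfold BlS at ha
    rw [mem_filter] at ha
    push Not at ha
    exact ha (mem_univ _)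
  unfold FfB
  fin_cases i
  · simp [Ff, h0 x hx, h0 y hy]
  · simp [Ff, h0 x hx, h0 y hy]

theorem K2_card {r : ℕ} (hr : 0 < r) (z : Tor N) :
    (3 / (r : ℝ)) ^ 2 * ((BlS z r).card : ℝ) ≤ 5184 := by
  have hr' : (0 : ℝ) < r := by exact_mod_cast hr
  have h := mul_le_mul_of_nonneg_left (card_BlS hr z) (sq_nonneg (3 / (r : ℝ)))
  refine h.trans (le_of_eq ?_)
  field_simp
  norm_num

section start

variable {Λ : Type*} [Fintype Λ] [DecidableEq Λ] {A : Matrix (Tor N) (Tor N) ℝ}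
  {p : Λ → ℝ} {good : Λ} {ν : Λ → Measure ℝ} {e : (Tor N → Λ) → Tor N → ℝ}

/-- START: second moment of every block energy -/
theorem start_PhB_sq (hs : A.IsSymm) (hA : ∀ x y, |A x y| ≤ AT N x y)
    (hp : ∀ l, 0 ≤ p l) (hp1 : ∑ l, p l = 1) (h1 : 1 - p good ≤ 1 / 8192)
    (hν : ∀ k, IsProbabilityMeasure (ν k)) (E : ℝ)
    (he : ∀ l x, 0 < e l x) (hbig : ∀ l x, l x = good → 32 ≤ e l x) {r : ℕ} (hr : 0 < r)
    (z : Tor N) :
    AvG p ν E e (fun _ V => PhB A V (fB z r) ^ 2) ≤ 10 ^ 19 := by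
  have h := start_sq (F := FfB (fB z r)) (K := 3 / (r : ℝ)) (Bl := BlS z r) hs hA hp hp1 h1 hν E
    he hbig (FfB_lip hr z) (FfB_const hr z)
  simp only [sum_En_FfB] at h
  refine h.trans ?_
  have h2 := pow_le_pow_left₀ (by positivity) (K2_card hr z) 2
  calc (2 : ℝ) * 10 ^ 11 * ((3 / (r : ℝ)) ^ 2 * ((BlS z r).card : ℝ)) ^ 2
      ≤ 2 * 10 ^ 11 * 5184 ^ 2 := mul_le_mul_of_nonneg_left h2 (by norm_num)
    _ ≤ 10 ^ 19 := by norm_num

/-- START: first moment of every block energy -/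
theorem start_PhB_one (hs : A.IsSymm) (hA : ∀ x y, |A x y| ≤ AT N x y)
    (hp : ∀ l, 0 ≤ p l) (hp1 : ∑ l, p l = 1) (h1 : 1 - p good ≤ 1 / 8192)
    (hν : ∀ k, IsProbabilityMeasure (ν k)) (E : ℝ)
    (he : ∀ l x, 0 < e l x) (hbig : ∀ l x, l x = good → 32 ≤ e l x) {r : ℕ} (hr : 0 < r)
    (z : Tor N) :
    AvG p ν E e (fun _ V => PhB A V (fB z r)) ≤ 10 ^ 7 := by
  have h := start_one (F := FfB (fB z r)) (K := 3 / (r : ℝ)) (Bl := BlS z r) hs hA hp hp1 h1 hν E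
    he hbig (FfB_lip hr z) (FfB_const hr z)
  unfold PhiG at h
  simp only [sum_En_FfB] at h
  refine h.trans ?_
  calc (800 : ℝ) * ((3 / (r : ℝ)) ^ 2 * ((BlS z r).card : ℝ)) ≤ 800 * 5184 :=
        mul_le_mul_of_nonneg_left (K2_card hr z) (by norm_num)
    _ ≤ 10 ^ 7 := by norm_num

end start

section v4

variable {D : V4 N} {ρ : Measure ℝ}

theorem st0_good (h : D.Ok ρ) (l : Tor N → D.Λ) (x : Tor N) (hl : l x = D.good) :
    32 ≤ H908.st D 0 l x := by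
  have h2 := h.us_ge 0 l x
  have h3 := h.b_pos
  have h4 : D.Ws 0 l x = 32 := by
    simp only [V3.Ws]
    rw [if_pos hl]
  unfold H908.st
  linarith

/-- one block at the beginning of the stage `j` -/
theorem PhB_st_le (h : D.Ok ρ) {j : ℕ} (hj : j ≤ D.I + 1) {A : Matrix (Tor N) (Tor N) ℝ}
    (hs : A.IsSymm) (hA : ∀ x y, |A x y| ≤ AT N x y) (E : ℝ) {r : ℕ} (hr : 0 < r) (z : Tor N)
    {a C : ℝ} (ha : 0 < a) (hC : 0 ≤ C) :
    AvG D.p D.ν E (H908.st D j) (fun _ V => H211.Th a C (PhB A V (fB z r))) ≤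
      (2 / H908.th D j) ^ 4 * 10 ^ 19 + C * ((2 / H908.th D j) ^ 2 * 10 ^ 7) := by
  have h1 := H908.AvG_st_le h hj hs E (FfB (fB z r)) (c := fun _ => 1) (fun _ => zero_le_one)
    ha hC
  simp only [← PhB_eq_EnC] at h1
  have hpos := H908.st_pos h (show 0 ≤ D.I + 1 by omega)
  have h2 := start_PhB_sq (p := D.p) (good := D.good) (ν := D.ν) (e := H908.st D 0) hs hA
    h.p_nonneg h.p_sum h.p_good h.prob E hpos (st0_good h) hr z
  have h3 := start_PhB_one (p := D.p) (good := D.good) (ν := D.ν) (e := H908.st D 0) hs hA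
    h.p_nonneg h.p_sum h.p_good h.prob E hpos (st0_good h) hr z
  have h4 : 0 < H908.th D j := H908.th_pos h hj
  refine h1.trans (add_le_add (mul_le_mul_of_nonneg_left h2 (by positivity))
    (mul_le_mul_of_nonneg_left (mul_le_mul_of_nonneg_left h3 (by positivity)) hC))

/-- **all blocks of the scale `r` at the beginning of the stage `j`** -/
theorem sum_PhB_st_le (h : D.Ok ρ) {j : ℕ} (hj : j ≤ D.I + 1) {A : Matrix (Tor N) (Tor N) ℝ}
    (hs : A.IsSymm) (hA : ∀ x y, |A x y| ≤ AT N x y) (E : ℝ) {r : ℕ} (hr : 0 < r)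
    {a C : ℝ} (ha : 0 < a) (hC : 0 ≤ C) :
    ∑ z : Tor N, AvG D.p D.ν E (H908.st D j) (fun _ V => H211.Th a C (PhB A V (fB z r))) ≤
      ((2 / H908.th D j) ^ 4 * 10 ^ 19 + C * ((2 / H908.th D j) ^ 2 * 10 ^ 7)) * (N : ℝ) ^ 2 := by
  refine (Finset.sum_le_sum fun z _ => PhB_st_le h hj hs hA E hr z ha hC).trans (le_of_eq ?_)
  rw [Finset.sum_const, Finset.card_univ, nsmul_eq_mul, card_Tor]
  ring

theorem AvG_const_mul {ι : Type*} [Fintype ι] [DecidableEq ι] {Λ : Type*} [Fintype Λ]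
    (p : Λ → ℝ) (ν : Λ → Measure ℝ) (E : ℝ) (e : (ι → Λ) → ι → ℝ) (c : ℝ)
    (G : (ι → Λ) → (ι → ℂ) → ℝ) :
    AvG p ν E e (fun l W => c * G l W) = c * AvG p ν E e G := by
  unfold AvG Ex
  rw [Finset.mul_sum]
  refine Finset.sum_congr rfl fun l _ => ?_
  rw [integral_const_mul]
  ring

/-- **all blocks of the scale `r` at the beginning of the stage `j`, functional `psi a`** -/
theorem sum_psi_st_le (h : D.Ok ρ) {j : ℕ} (hj : j ≤ D.I + 1) {A : Matrix (Tor N) (Tor N) ℝ}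
    (hs : A.IsSymm) (hA : ∀ x y, |A x y| ≤ AT N x y) (E : ℝ) {r : ℕ} (hr : 0 < r)
    {a : ℝ} (ha : 0 < a) :
    ∑ z : Tor N, AvG D.p D.ν E (H908.st D j) (fun _ V => H211.psi a (PhB A V (fB z r))) ≤
      (2 / H908.th D j) ^ 4 * 10 ^ 19 / a * (N : ℝ) ^ 2 := by
  have h1 := sum_PhB_st_le h hj hs hA E hr ha (le_refl (0 : ℝ))
  have e1 : ∀ z : Tor N, AvG D.p D.ν E (H908.st D j)
      (fun _ V => H211.Th a 0 (PhB A V (fB z r))) =
      a * AvG D.p D.ν E (H908.st D j) (fun _ V => H211.psi a (PhB A V (fB z r))) := by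
    intro z
    rw [← AvG_const_mul]
    congr 1
    funext l V
    unfold H211.Th
    ring
  simp only [e1, ← Finset.mul_sum, zero_mul, add_zero] at h1
  rw [div_mul_eq_mul_div, le_div_iff₀ ha]
  linarith

end v4

end P365T2.H536
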