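import Vale.Agent.P365.T1a.StartLab

/-!
# P365-T2, X-START2 (1): the path expansion for arbitrary nondecreasing weights
-/

set_option linter.all false

namespace P365T2.H536

open Finset MeasureTheory P365T1

section paths

variable {ι : Type*} [DecidableEq ι] [Fintype ι]

/-- the path expansion, any nondecreasing weight `φ ≥ 0` -/
theorem sum_exp_le_gen {nb : ι → Finset ι} {b : ι} (h : Conn nb b) (B : Finset ι) {g : ι → ℕ}
    (hg0 : g b = 0) (hg : ∀ x, ∀ y ∈ nb x, g y ≤ g x + 1) {μ : ℝ} (hμ : 0 ≤ μ)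
    {φ : ℕ → ℝ} (hφ0 : ∀ n, 0 ≤ φ n) (hφ : Monotone φ) :
    ∑ a, φ (g a) * Real.exp (-2 * μ * dg nb B b a) ≤
      ∑ n ∈ range (Fintype.card ι), ∑ l ∈ (Qp nb b n).filter (fun l => l.Nodup),
        φ n * (Real.exp (-2 * μ * n) *
          Real.exp (4 * μ * (l.countP (fun z => decide (z ∈ B)) : ℕ))) := by
  classical
  have key : ∀ a, ∃ n ∈ range (Fintype.card ι), ∃ l ∈ (Qp nb b n).filter (fun l => l.Nodup),
      l.headD b = a ∧ φ (g a) * Real.exp (-2 * μ * dg nb B b a) ≤
      φ n * (Real.exp (-2 * μ * n) *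
          Real.exp (4 * μ * (l.countP (fun z => decide (z ∈ B)) : ℕ))) := by
    intro a
    obtain ⟨n, l, h1, h2, h3, h4⟩ := Rch_dg h B a
    have hlen := length_of_mem_Qp h1
    have hcard : l.length ≤ Fintype.card ι := h2.length_le_card
    refine ⟨n, mem_range.2 (by omega), l, mem_filter.2 ⟨h1, h2⟩, h3, ?_⟩
    have hga : g a ≤ n := by rw [← h3]; exact le_of_mem_Qp hg0 hg h1
    refine mul_le_mul (hφ hga) ?_ (Real.exp_pos _).le (hφ0 n)
    rw [← Real.exp_add]
    apply Real.exp_le_exp.2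
    have h5 : n ≤ dg nb B b a + 2 * l.countP (fun z => decide (z ∈ B)) := by
      cases l with
      | nil => simp at hlen
      | cons x t =>
        have h6 := length_le_gd B x t
        rw [hlen] at h6
        omega
    have h5' : (n : ℝ) ≤ dg nb B b a + 2 * (l.countP (fun z => decide (z ∈ B)) : ℕ) := by
      exact_mod_cast h5
    nlinarith [mul_le_mul_of_nonneg_left h5' hμ]
  choose n hn l hl hla hle using key
  have hpos : ∀ (m : ℕ) (l' : List ι), 0 ≤ φ m * (Real.exp (-2 * μ * m) *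
          Real.exp (4 * μ * (l'.countP (fun z => decide (z ∈ B)) : ℕ))) := fun m _ =>
    mul_nonneg (hφ0 m) (by positivity)
  calc ∑ a, φ (g a) * Real.exp (-2 * μ * dg nb B b a)
      ≤ ∑ a, ∑ m ∈ range (Fintype.card ι), ∑ l' ∈ (Qp nb b m).filter (fun l => l.Nodup),
          if l'.headD b = a then φ m * (Real.exp (-2 * μ * m) *
          Real.exp (4 * μ * (l'.countP (fun z => decide (z ∈ B)) : ℕ))) else 0 := by
        refine Finset.sum_le_sum fun a _ => (hle a).trans ?_
        refine le_trans ?_ (Finset.single_le_sum (f := fun m => ∑ l' ∈ (Qp nb b m).filter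
          (fun l => l.Nodup), if l'.headD b = a then φ m * (Real.exp (-2 * μ * m) *
          Real.exp (4 * μ * (l'.countP (fun z => decide (z ∈ B)) : ℕ))) else 0)
          (fun m _ => Finset.sum_nonneg fun l' _ => by
            split_ifs
            · exact hpos _ _
            · exact le_rfl) (hn a))
        refine le_trans ?_ (Finset.single_le_sum (f := fun l' => if l'.headD b = a then
          φ (n a) * (Real.exp (-2 * μ * (n a : ℕ)) *
          Real.exp (4 * μ * (l'.countP (fun z => decide (z ∈ B)) : ℕ))) else 0)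
          (fun l' _ => by
            split_ifs
            · exact hpos _ _
            · exact le_rfl) (hl a))
        simp only [hla a, if_true]
        exact le_rfl
    _ = _ := by
        rw [Finset.sum_comm]
        refine Finset.sum_congr rfl fun m _ => ?_
        rw [Finset.sum_comm]
        refine Finset.sum_congr rfl fun l' _ => ?_
        rw [Finset.sum_ite_eq]
        simp

variable {Ω : Type*} [MeasurableSpace Ω] {P : Measure Ω}

/-- first moment of the weighted sum, any nondecreasing weight -/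
theorem integral_sum_exp_le_gen [IsProbabilityMeasure P] {nb : ι → Finset ι} {b : ι}
    (h : Conn nb b) {B : Ω → Finset ι} (hB : ∀ x, MeasurableSet {ω | x ∈ B ω}) {g : ι → ℕ}
    (hg0 : g b = 0) (hg : ∀ x, ∀ y ∈ nb x, g y ≤ g x + 1) {μ : ℝ} (hμ : 0 ≤ μ)
    {φ : ℕ → ℝ} (hφ0 : ∀ n, 0 ≤ φ n) (hφ : Monotone φ)
    {Δ : ℕ} (hΔ : ∀ x, (nb x).card ≤ Δ) {c : ℝ} (hc : 0 ≤ c)
    (hE : ∀ l : List ι, l.Nodup →
      ∫ ω, Real.exp (4 * μ * (l.countP (fun z => decide (z ∈ B ω)) : ℕ)) ∂P ≤ c ^ l.length)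
    (hq : Δ * c * Real.exp (-2 * μ) ≤ 1 / 4)
    {M : ℝ} (hM : ∀ m : ℕ, ∑ n ∈ range m, φ n * (1 / 4) ^ n ≤ M) :
    ∫ ω, ∑ a, φ (g a) * Real.exp (-2 * μ * dg nb (B ω) b a) ∂P ≤ c * M := by
  classical
  have hint : ∀ l : List ι, Integrable
      (fun ω => Real.exp (4 * μ * (l.countP (fun z => decide (z ∈ B ω)) : ℕ))) P := fun l =>
    integrable_comp_finset hB (fun S => Real.exp (4 * μ * (l.countP (fun z => decide (z ∈ S)) : ℕ)))
  have hint2 : ∀ (n : ℕ) (l : List ι), Integrable (fun ω => φ n * (Real.exp (-2 * μ * n) *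
      Real.exp (4 * μ * (l.countP (fun z => decide (z ∈ B ω)) : ℕ)))) P := fun n l =>
    ((hint l).const_mul _).const_mul _
  calc ∫ ω, ∑ a, φ (g a) * Real.exp (-2 * μ * dg nb (B ω) b a) ∂P
      ≤ ∫ ω, ∑ n ∈ range (Fintype.card ι), ∑ l ∈ (Qp nb b n).filter (fun l => l.Nodup),
        φ n * (Real.exp (-2 * μ * n) *
          Real.exp (4 * μ * (l.countP (fun z => decide (z ∈ B ω)) : ℕ))) ∂P := by
        refine integral_mono (integrable_comp_finset hB
          (fun S => ∑ a, φ (g a) * Real.exp (-2 * μ * dg nb S b a))) ?_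
          fun ω => sum_exp_le_gen h (B ω) hg0 hg hμ hφ0 hφ
        exact integrable_finset_sum _ fun n _ => integrable_finset_sum _ fun l _ => hint2 n l
    _ = ∑ n ∈ range (Fintype.card ι), ∑ l ∈ (Qp nb b n).filter (fun l => l.Nodup),
        φ n * (Real.exp (-2 * μ * n) *
        ∫ ω, Real.exp (4 * μ * (l.countP (fun z => decide (z ∈ B ω)) : ℕ)) ∂P) := by
        rw [integral_finset_sum _ fun n _ => integrable_finset_sum _ fun l _ => hint2 n l]
        refine Finset.sum_congr rfl fun n _ => ?_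
        rw [integral_finset_sum _ fun l _ => hint2 n l]
        refine Finset.sum_congr rfl fun l _ => ?_
        rw [integral_const_mul, integral_const_mul]
    _ ≤ ∑ n ∈ range (Fintype.card ι), c * (φ n * (1 / 4) ^ n) := by
        refine Finset.sum_le_sum fun n _ => ?_
        have hφn := hφ0 n
        calc ∑ l ∈ (Qp nb b n).filter (fun l => l.Nodup),
              φ n * (Real.exp (-2 * μ * n) *
              ∫ ω, Real.exp (4 * μ * (l.countP (fun z => decide (z ∈ B ω)) : ℕ)) ∂P)
            ≤ ∑ l ∈ (Qp nb b n).filter (fun l => l.Nodup),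
              φ n * (Real.exp (-2 * μ * n) * c ^ (n + 1)) := by
              refine Finset.sum_le_sum fun l hl => ?_
              rw [mem_filter] at hl
              have h1 := hE l hl.2
              rw [length_of_mem_Qp hl.1] at h1
              gcongr
          _ = ((Qp nb b n).filter (fun l => l.Nodup)).card *
              (φ n * (Real.exp (-2 * μ * n) * c ^ (n + 1))) := by
              rw [sum_const, nsmul_eq_mul]
          _ ≤ (Δ : ℝ) ^ n * (φ n * (Real.exp (-2 * μ * n) * c ^ (n + 1))) := by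
              have h1 : (((Qp nb b n).filter (fun l => l.Nodup)).card : ℝ) ≤ (Δ : ℝ) ^ n := by
                exact_mod_cast (card_filter_le _ _).trans (card_Qp_le hΔ b n)
              gcongr
          _ = c * (φ n * (Δ * c * Real.exp (-2 * μ)) ^ n) := by
              have h2 : Real.exp (-2 * μ * n) = Real.exp (-2 * μ) ^ n := by
                rw [← Real.exp_nat_mul]; ring_nf
              rw [h2, mul_pow, mul_pow]; ring
          _ ≤ c * (φ n * (1 / 4) ^ n) := by
              have h3 : 0 ≤ Δ * c * Real.exp (-2 * μ) := by positivity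
              gcongr
    _ ≤ c * M := by
        rw [← Finset.mul_sum]
        exact mul_le_mul_of_nonneg_left (hM _) hc

end paths

/-! ### the weights -/

theorem exp_half_le : Real.exp (1 / 2) ≤ 2 := by
  have h1 : Real.exp 1 ≤ 2.7182818286 := Real.exp_one_lt_d9.le
  have h2 : Real.exp (1 / 2) * Real.exp (1 / 2) = Real.exp 1 := by
    rw [← Real.exp_add]; norm_num
  have h3 := Real.exp_pos (1 / 2)
  nlinarith

theorem one_add_pow_le (k n : ℕ) :
    (1 + (n : ℝ)) ^ k ≤ k.factorial * 2 ^ k * 2 ^ (n + 1) := by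
  have h1 := Real.pow_div_factorial_le_exp ((1 + (n : ℝ)) / 2) (by positivity) k
  have h2 : Real.exp ((1 + (n : ℝ)) / 2) ≤ 2 ^ (n + 1) := by
    have : (1 + (n : ℝ)) / 2 = ((n + 1 : ℕ) : ℝ) * (1 / 2) := by push_cast; ring
    rw [this, Real.exp_nat_mul]
    exact pow_le_pow_left₀ (Real.exp_pos _).le exp_half_le _
  have h3 := h1.trans h2
  have hk : (0 : ℝ) < k.factorial := by exact_mod_cast k.factorial_pos
  rw [div_le_iff₀ hk, div_pow, div_le_iff₀ (by positivity)] at h3
  calc (1 + (n : ℝ)) ^ k ≤ 2 ^ (n + 1) * k.factorial * 2 ^ k := h3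
    _ = _ := by ring

theorem sum_pow_quarter (k m : ℕ) :
    ∑ n ∈ range m, (1 + (n : ℝ)) ^ k * (1 / 4) ^ n ≤ 4 * (k.factorial * 2 ^ k) := by
  have h1 : ∀ n : ℕ, (1 + (n : ℝ)) ^ k * (1 / 4) ^ n ≤
      2 * (k.factorial * 2 ^ k) * (1 / 2 : ℝ) ^ n := by
    intro n
    calc (1 + (n : ℝ)) ^ k * (1 / 4) ^ n
        ≤ (k.factorial * 2 ^ k * 2 ^ (n + 1)) * (1 / 4) ^ n :=
          mul_le_mul_of_nonneg_right (one_add_pow_le k n) (by positivity)
      _ = 2 * (k.factorial * 2 ^ k) * (2 * (1 / 4)) ^ n := by rw [mul_pow]; ring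
      _ = _ := by norm_num
  refine (Finset.sum_le_sum fun n _ => h1 n).trans ?_
  rw [← Finset.mul_sum]
  have h5 : ∑ n ∈ range m, (1 / 2 : ℝ) ^ n ≤ 2 := by
    have := sum_geometric_two_le m
    simpa using this
  calc 2 * ((k.factorial : ℝ) * 2 ^ k) * ∑ n ∈ range m, (1 / 2 : ℝ) ^ n
      ≤ 2 * ((k.factorial : ℝ) * 2 ^ k) * 2 := mul_le_mul_of_nonneg_left h5 (by positivity)
    _ = _ := by ring

end P365T2.H536
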