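import Vale.Agent.P365.T2.H536.Weight
import Vale.Agent.P365.V4.Start77

/-!
# P365-T2, X-START2: all moments of the block energy at START

Labels independent with `1 - p good ≤ 1/8192`, absorption `≥ 32` at the good sites and any
positive number elsewhere, any symmetric matrix dominated by the adjacency of the torus.

* `FB1_pow_sum_labels`: `E (FB1 b)^(m+1) ≤ cF m` for the majorant of one column;
* `En_blk`: a finite family `F` of functions which are constant off a set `Bl`, Lipschitz with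
  constant `K` (vector form): `∑_k En (F k) ≤ 2 K² ∑_{b ∈ Bl} FB1 b`;
* `start_pow`: `Av (∑_k En (F k))^(m+1) ≤ cF m (2 K² |Bl|)^(m+1)`;
* `start_sq`: `Av (∑_k En (F k))² ≤ 2·10¹¹ (K² |Bl|)²`;
* `start_theta`: `Av Θ(∑_k En (F k)) ≤ 800 c₁ K² |Bl| + 2·10¹¹ c₂ (K² |Bl|)²` for every
  `Θ ≥ 0` with `Θ x ≤ c₁ x + c₂ x²`;
* `start_block`: the same for `Φ = 4 En f + En f²`, `|f| ≤ 1`.
-/

set_option linter.all false

namespace P365T2.H536

open Finset MeasureTheory P365T1 P365L P365O P365L.TL Vale.Agent.P365.J376 Matrix Complex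
open P365V4.Start77

variable {N : ℕ} [NeZero N]

/-! ### powers of the majorant -/

theorem FB1_pow_le (b : Tor N) (S : Finset (Tor N)) (m : ℕ) :
    FB1 N b S ^ (m + 1) ≤ 4 ^ (m + 1) * (16 ^ m * ∑ a, (1 + (nrm (a - b) : ℝ)) ^ (6 * m + 2) *
      Real.exp (-2 * Real.log 8 * dg (nbT N) S b a)) := by
  have hlog : 0 ≤ Real.log 8 := Real.log_nonneg (by norm_num)
  unfold FB1
  rw [mul_pow]
  refine mul_le_mul_of_nonneg_left ?_ (by positivity)
  refine (sum_pow_le b (fun a => (nrm (a - b) : ℝ) ^ 2 *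
    Real.exp (-2 * Real.log 8 * dg (nbT N) S b a)) (fun a => by positivity) m).trans ?_
  refine mul_le_mul_of_nonneg_left (Finset.sum_le_sum fun a _ => ?_) (by positivity)
  have h1 : Real.exp (-2 * Real.log 8 * dg (nbT N) S b a) ^ (m + 1) ≤
      Real.exp (-2 * Real.log 8 * dg (nbT N) S b a) := by
    refine pow_le_of_le_one (Real.exp_pos _).le ?_ (Nat.succ_ne_zero m)
    rw [Real.exp_le_one_iff]
    have : (0 : ℝ) ≤ dg (nbT N) S b a := Nat.cast_nonneg _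
    nlinarith [mul_nonneg hlog this]
  have h2 : ((nrm (a - b) : ℝ) ^ 2) ^ (m + 1) ≤ (1 + (nrm (a - b) : ℝ)) ^ (2 * (m + 1)) := by
    rw [← pow_mul]
    exact pow_le_pow_left₀ (Nat.cast_nonneg _) (by linarith) _
  calc ((nrm (a - b) : ℝ) ^ 2 * Real.exp (-2 * Real.log 8 * dg (nbT N) S b a)) ^ (m + 1) *
        (1 + (nrm (a - b) : ℝ)) ^ (4 * m)
      = ((nrm (a - b) : ℝ) ^ 2) ^ (m + 1) *
        Real.exp (-2 * Real.log 8 * dg (nbT N) S b a) ^ (m + 1) *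
        (1 + (nrm (a - b) : ℝ)) ^ (4 * m) := by rw [mul_pow]
    _ ≤ (1 + (nrm (a - b) : ℝ)) ^ (2 * (m + 1)) *
        Real.exp (-2 * Real.log 8 * dg (nbT N) S b a) *
        (1 + (nrm (a - b) : ℝ)) ^ (4 * m) := by gcongr
    _ = _ := by
        rw [mul_right_comm, ← pow_add]
        congr 2
        ring

/-- constant of the `(m+1)`-st moment -/
noncomputable def cF (m : ℕ) : ℝ :=
  4 ^ (m + 1) * (16 ^ m * (3 * (4 * ((6 * m + 2).factorial * 2 ^ (6 * m + 2)))))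

theorem cF_pos (m : ℕ) : 0 < cF m := by
  unfold cF
  have : (0 : ℝ) < (6 * m + 2).factorial := by exact_mod_cast (6 * m + 2).factorial_pos
  positivity

theorem cF_zero : cF 0 ≤ 400 := by
  unfold cF
  norm_num [Nat.factorial]

theorem cF_one : cF 1 ≤ 4 * 10 ^ 10 := by
  unfold cF
  norm_num [Nat.factorial]

/-- moments of the majorant at one site: coins version -/
theorem FB1_pow_integral_coins {Ω : Type*} [MeasurableSpace Ω] {P : Measure Ω}
    [IsProbabilityMeasure P] (b : Tor N)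
    {J : Type*} [Fintype J] (X : J → Set Ω) (hX : ∀ j, MeasurableSet (X j)) (q : J → ℝ)
    (hq0 : ∀ j, 0 ≤ q j)
    (hP : ∀ T : Finset J, P.real (⋂ j ∈ T, X j) ≤ ∏ j ∈ T, q j)
    (bx : J → Finset (Tor N))
    (hsum : ∀ x, ∑ j, (if x ∈ bx j then q j * (4096 : ℝ) ^ (bx j).card else 0) ≤ 1)
    {B : Ω → Finset (Tor N)} (hB : ∀ x, MeasurableSet {ω | x ∈ B ω})
    (hcov : ∀ ω, ∀ x ∈ B ω, ∃ j, ω ∈ X j ∧ x ∈ bx j) (m : ℕ) :
    ∫ ω, FB1 N b (B ω) ^ (m + 1) ∂P ≤ cF m := by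
  classical
  have hlog : 0 ≤ Real.log 8 := Real.log_nonneg (by norm_num)
  have h8 : Real.exp (Real.log 8) = 8 := Real.exp_log (by norm_num)
  have hs : ∀ k : ℕ, Real.exp (4 * Real.log 8 * k) = (4096 : ℝ) ^ k := by
    intro k
    have : 4 * Real.log 8 * k = (4 * k : ℕ) * Real.log 8 := by push_cast; ring
    rw [this, Real.exp_nat_mul, h8, pow_mul]
    norm_num
  have he1 : Real.exp 1 ≤ 2.7182818286 := Real.exp_one_lt_d9.le
  have hE : ∀ l : List (Tor N), l.Nodup →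
      ∫ ω, Real.exp (4 * Real.log 8 * (l.countP (fun z => decide (z ∈ B ω)) : ℕ)) ∂P ≤
        Real.exp 1 ^ l.length := fun l hl =>
    coins X hX q hq0 hP bx hB hcov (s := 4 * Real.log 8) (by positivity)
      (fun x => by simp only [hs]; exact hsum x) l hl
  have hq : 4 * Real.exp 1 * Real.exp (-2 * Real.log 8) ≤ 1 / 4 := by
    have h2 : Real.exp (-2 * Real.log 8) = 1 / 64 := by
      have : -2 * Real.log 8 = -((2 : ℕ) * Real.log 8) := by push_cast; ring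
      rw [this, Real.exp_neg, Real.exp_nat_mul, h8]
      norm_num
    rw [h2]
    linarith
  have hterm : ∫ ω, ∑ a, (1 + (nrm (a - b) : ℝ)) ^ (6 * m + 2) *
      Real.exp (-2 * Real.log 8 * dg (nbT N) (B ω) b a) ∂P ≤
      Real.exp 1 * (4 * ((6 * m + 2).factorial * 2 ^ (6 * m + 2))) := by
    refine integral_sum_exp_le_gen (nb := nbT N) (b := b) (conn_tor b) hB
      (g := fun a => nrm (a - b)) (by simp only [sub_self]; exact nrm_zero) ?_ hlog
      (φ := fun n => (1 + (n : ℝ)) ^ (6 * m + 2)) (fun n => by positivity) ?_ (Δ := 4)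
      (fun x => card_nbT_le x) (Real.exp_pos _).le hE (by exact_mod_cast hq)
      (sum_pow_quarter (6 * m + 2))
    · intro x y hy
      have h2 : y - b = (x - b) + (y - x) := by abel
      rw [h2]
      exact (nrm_add_le _ _).trans (Nat.add_le_add_left (nrm_nbs (mem_nbT.1 hy)) _)
    · intro n n' hn
      have : (n : ℝ) ≤ n' := by exact_mod_cast hn
      exact pow_le_pow_left₀ (by positivity) (by linarith) _
  calc ∫ ω, FB1 N b (B ω) ^ (m + 1) ∂P
      ≤ ∫ ω, 4 ^ (m + 1) * (16 ^ m * ∑ a, (1 + (nrm (a - b) : ℝ)) ^ (6 * m + 2) *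
        Real.exp (-2 * Real.log 8 * dg (nbT N) (B ω) b a)) ∂P := by
        refine integral_mono (integrable_comp_finset hB (fun S => FB1 N b S ^ (m + 1)))
          (integrable_comp_finset hB (fun S => (4 : ℝ) ^ (m + 1) * (16 ^ m *
            ∑ a, (1 + (nrm (a - b) : ℝ)) ^ (6 * m + 2) *
            Real.exp (-2 * Real.log 8 * dg (nbT N) S b a)))) fun ω => FB1_pow_le b (B ω) m
    _ = 4 ^ (m + 1) * (16 ^ m * ∫ ω, ∑ a, (1 + (nrm (a - b) : ℝ)) ^ (6 * m + 2) *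
        Real.exp (-2 * Real.log 8 * dg (nbT N) (B ω) b a) ∂P) := by
        rw [integral_const_mul, integral_const_mul]
    _ ≤ cF m := by
        unfold cF
        refine mul_le_mul_of_nonneg_left (mul_le_mul_of_nonneg_left (hterm.trans ?_)
          (by positivity)) (by positivity)
        refine mul_le_mul_of_nonneg_right (by linarith) (by positivity)

section labels

variable {Λ : Type*} [Fintype Λ] [DecidableEq Λ]

/-- moments of the majorant, average over independent labels -/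
theorem FB1_pow_sum_labels (b : Tor N) (p : Λ → ℝ) (hp : ∀ l, 0 ≤ p l) (hp1 : ∑ l, p l = 1)
    (good : Λ) (h1 : 1 - p good ≤ 1 / 8192)
    {B : (Tor N → Λ) → Finset (Tor N)} (hcov : ∀ L, ∀ x ∈ B L, L x ≠ good) (m : ℕ) :
    ∑ L : Tor N → Λ, (∏ x, p (L x)) * FB1 N b (B L) ^ (m + 1) ≤ cF m := by
  classical
  letI : MeasurableSpace Λ := ⊤
  haveI : MeasurableSingletonClass Λ := ⟨fun _ => trivial⟩
  obtain ⟨κ, hκ⟩ : ∃ κ : Tor N → Measure Λ,
      κ = fun _ => ∑ l, ENNReal.ofReal (p l) • Measure.dirac l := ⟨_, rfl⟩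
  have hκs : ∀ x (S : Set Λ), (κ x).real S = ∑ l, p l * S.indicator (fun _ => (1 : ℝ)) l := by
    intro x S
    simp only [hκ, Measure.real]
    rw [Measure.finset_sum_apply, ENNReal.toReal_sum (fun l _ => by
      rw [Measure.smul_apply, smul_eq_mul]
      exact ENNReal.mul_ne_top ENNReal.ofReal_ne_top (measure_ne_top _ _))]
    refine Finset.sum_congr rfl fun l _ => ?_
    rw [Measure.smul_apply, smul_eq_mul, ENNReal.toReal_mul, ENNReal.toReal_ofReal (hp l),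
      Measure.dirac_apply' _ (by trivial)]
    congr 1
    by_cases h : l ∈ S <;> simp [h]
  haveI : ∀ x, IsProbabilityMeasure (κ x) := by
    intro x
    refine ⟨?_⟩
    simp only [hκ]
    rw [Measure.finset_sum_apply]
    simp only [Measure.smul_apply, smul_eq_mul, measure_univ, mul_one]
    rw [← ENNReal.ofReal_sum_of_nonneg fun l _ => hp l, hp1, ENNReal.ofReal_one]
  have hsing : ∀ x l, (κ x).real {l} = p l := by
    intro x l
    rw [hκs x, Finset.sum_eq_single l]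
    · simp
    · intro l' _ hne; simp [hne]
    · intro h; exact absurd (Finset.mem_univ _) h
  have hmeas : ∀ S : Set (Tor N → Λ), MeasurableSet S := fun S => S.toFinite.measurableSet
  have h := FB1_pow_integral_coins (P := Measure.pi κ) b
    (fun x : Tor N => {L : Tor N → Λ | L x ≠ good})
    (fun j => hmeas _) (fun _ => 1 / 8192) (fun _ => by norm_num) ?_ (fun x => {x}) ?_
    (B := B) (fun x => hmeas _) (fun L x hx => ⟨x, hcov L x hx, Finset.mem_singleton_self x⟩) m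
  · rw [integral_fintype Integrable.of_finite] at h
    refine le_trans (le_of_eq ?_) h
    refine Finset.sum_congr rfl fun L _ => ?_
    rw [smul_eq_mul]
    congr 1
    rw [Measure.real, ← Set.univ_pi_singleton, Measure.pi_pi, ENNReal.toReal_prod]
    exact Finset.prod_congr rfl fun x _ => (hsing x (L x)).symm
  · intro T
    have e1 : (⋂ j ∈ T, {L : Tor N → Λ | L j ≠ good}) =
        Set.univ.pi fun x => if x ∈ T then {l : Λ | l ≠ good} else Set.univ := by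
      ext L
      simp only [Set.mem_iInter, Set.mem_setOf_eq, Set.mem_univ_pi]
      constructor
      · intro h x
        by_cases hx : x ∈ T
        · rw [if_pos hx]; exact h x hx
        · rw [if_neg hx]; exact Set.mem_univ _
      · intro h x hx
        have := h x
        rw [if_pos hx] at this
        exact this
    rw [e1, Measure.real, Measure.pi_pi, ENNReal.toReal_prod]
    have e2 : ∀ x, ((κ x) (if x ∈ T then {l : Λ | l ≠ good} else Set.univ)).toReal ≤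
        if x ∈ T then (1 / 8192 : ℝ) else 1 := by
      intro x
      by_cases hx : x ∈ T
      · rw [if_pos hx, if_pos hx]
        have hc : {l : Λ | l ≠ good} = {good}ᶜ := by ext l; simp
        rw [hc]
        have := measureReal_compl (μ := κ x) (MeasurableSet.singleton good)
        rw [hsing, probReal_univ] at this
        change (κ x).real {good}ᶜ ≤ _
        rw [this]
        exact h1
      · rw [if_neg hx, if_neg hx, measure_univ, ENNReal.toReal_one]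
    refine (Finset.prod_le_prod (fun x _ => ENNReal.toReal_nonneg) fun x _ => e2 x).trans ?_
    rw [Finset.prod_ite, Finset.prod_const_one, mul_one]
    simp
  · intro x
    have e1 : ∀ j : Tor N, (if x ∈ ({j} : Finset (Tor N)) then
        (1 / 8192 : ℝ) * 4096 ^ ({j} : Finset (Tor N)).card else 0) =
        if j = x then (1 / 2 : ℝ) else 0 := by
      intro j
      by_cases h : j = x
      · subst h
        rw [if_pos (Finset.mem_singleton_self _), if_pos rfl, Finset.card_singleton]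
        norm_num
      · rw [if_neg h, if_neg]
        rw [Finset.mem_singleton]
        exact fun h' => h h'.symm
    rw [Finset.sum_congr rfl fun j _ => e1 j, Finset.sum_ite_eq' Finset.univ x]
    simp
    norm_num

end labels

/-! ### the energy of a block -/

section det

variable {A : Matrix (Tor N) (Tor N) ℝ} {W : Tor N → ℂ}

/-- deterministic: functions which are constant off `Bl` -/
theorem En_blk (hs : A.IsSymm) (hA : ∀ x y, |A x y| ≤ AT N x y)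
    (hW : ∀ x, (W x).im < 0) (B : Finset (Tor N))
    (hbig : ∀ x, x ∉ B → 32 ≤ -(W x).im) {κ : Type*} [Fintype κ] {F : κ → Tor N → ℝ} {K : ℝ}
    (hF : ∀ x y, ∑ k, (F k x - F k y) ^ 2 ≤ K ^ 2 * (nrm (x - y) : ℝ) ^ 2)
    {Bl : Finset (Tor N)} (hBl : ∀ k, ∀ x ∉ Bl, ∀ y ∉ Bl, F k x = F k y) :
    ∑ k, En A W (F k) ≤ 2 * K ^ 2 * ∑ b ∈ Bl, FB1 N b B := by
  classical
  have he : ∀ x, 0 ≤ -(W x).im := fun x => by linarith [hW x]
  obtain ⟨T, hT⟩ : ∃ T : Tor N → Tor N → ℝ, T = fun a b => (-(W a).im) * (-(W b).im) *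
      KK A W a b * ∑ k, (F k a - F k b) ^ 2 := ⟨_, rfl⟩
  have hT0 : ∀ a b, 0 ≤ T a b := fun a b => by
    rw [hT]
    exact mul_nonneg (mul_nonneg (mul_nonneg (he a) (he b)) (KK_nonneg _ _))
      (Finset.sum_nonneg fun k _ => sq_nonneg _)
  have hTs : ∀ a b, T a b = T b a := by
    intro a b
    rw [hT]
    simp only
    have h1 : KK A W a b = KK A W b a := by
      rw [KK, KK, Gr_symm hs]
    have h2 : ∑ k, (F k a - F k b) ^ 2 = ∑ k, (F k b - F k a) ^ 2 :=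
      Finset.sum_congr rfl fun k _ => by ring
    rw [h1, h2]
    ring
  have hTz : ∀ a ∉ Bl, ∀ b ∉ Bl, T a b = 0 := by
    intro a ha b hb
    rw [hT]
    simp only
    rw [Finset.sum_eq_zero fun k _ => by rw [hBl k a ha b hb, sub_self]; norm_num, mul_zero]
  have e1 : ∑ k, En A W (F k) = ∑ b, ∑ a, T a b := by
    rw [hT]
    unfold En
    simp only [Finset.mul_sum]
    calc ∑ k, ∑ x, ∑ y, (-(W x).im) * (-(W y).im) * KK A W x y * (F k x - F k y) ^ 2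
        = ∑ k, ∑ y, ∑ x, (-(W x).im) * (-(W y).im) * KK A W x y * (F k x - F k y) ^ 2 :=
          Finset.sum_congr rfl fun k _ => Finset.sum_comm
      _ = ∑ y, ∑ k, ∑ x, (-(W x).im) * (-(W y).im) * KK A W x y * (F k x - F k y) ^ 2 :=
          Finset.sum_comm
      _ = _ := Finset.sum_congr rfl fun y _ => Finset.sum_comm
  have hcol : ∀ b, ∑ a, T a b ≤ K ^ 2 * FB1 N b B := by
    intro b
    refine le_trans ?_ (mul_le_mul_of_nonneg_left (start_colA hs hA hW B hbig b) (sq_nonneg K))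
    rw [Finset.mul_sum, Finset.mul_sum]
    refine Finset.sum_le_sum fun a _ => ?_
    rw [hT]
    simp only
    have h2 : 0 ≤ (-(W a).im) * (-(W b).im) * KK A W a b :=
      mul_nonneg (mul_nonneg (he a) (he b)) (KK_nonneg _ _)
    calc (-(W a).im) * (-(W b).im) * KK A W a b * ∑ k, (F k a - F k b) ^ 2
        ≤ (-(W a).im) * (-(W b).im) * KK A W a b * (K ^ 2 * (nrm (a - b) : ℝ) ^ 2) :=
          mul_le_mul_of_nonneg_left (hF a b) h2
      _ = _ := by ring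
  have e2 : ∑ b, ∑ a, T a b = ∑ b ∈ Bl, ∑ a, T a b + ∑ b ∈ Blᶜ, ∑ a, T a b :=
    (Finset.sum_add_sum_compl Bl _).symm
  have e3 : ∑ b ∈ Blᶜ, ∑ a, T a b ≤ ∑ b ∈ Bl, ∑ a, T a b := by
    calc ∑ b ∈ Blᶜ, ∑ a, T a b = ∑ b ∈ Blᶜ, ∑ a ∈ Bl, T a b := by
          refine Finset.sum_congr rfl fun b hb => ?_
          rw [← Finset.sum_add_sum_compl Bl (fun a => T a b)]
          rw [Finset.sum_eq_zero fun a ha => hTz a (Finset.mem_compl.1 ha) b
            (Finset.mem_compl.1 hb), add_zero]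
      _ = ∑ a ∈ Bl, ∑ b ∈ Blᶜ, T a b := Finset.sum_comm
      _ = ∑ a ∈ Bl, ∑ b ∈ Blᶜ, T b a := Finset.sum_congr rfl fun a _ =>
          Finset.sum_congr rfl fun b _ => hTs a b
      _ ≤ ∑ a ∈ Bl, ∑ b, T b a := Finset.sum_le_sum fun a _ =>
          Finset.sum_le_sum_of_subset_of_nonneg (Finset.subset_univ _) fun b _ _ => hT0 b a
  rw [e1, e2]
  have h4 : ∑ b ∈ Bl, ∑ a, T a b ≤ K ^ 2 * ∑ b ∈ Bl, FB1 N b B := by
    rw [Finset.mul_sum]
    exact Finset.sum_le_sum fun b _ => hcol b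
  linarith

theorem En_nonneg' (hW : ∀ x, (W x).im < 0) (f : Tor N → ℝ) : 0 ≤ En A W f :=
  Finset.sum_nonneg fun x _ => Finset.sum_nonneg fun y _ =>
    mul_nonneg (mul_nonneg (mul_nonneg (by linarith [hW x]) (by linarith [hW y]))
      (KK_nonneg _ _)) (sq_nonneg _)

end det

theorem WV_im2 (E : ℝ) (e v : Tor N → ℝ) (x : Tor N) : (WV E e v x).im = -e x := by
  simp [WV]

/-- power of a block sum -/
theorem sum_pow_card {α : Type*} (s : Finset α) (f : α → ℝ) (hf : ∀ a ∈ s, 0 ≤ f a) (m : ℕ) :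
    (∑ a ∈ s, f a) ^ (m + 1) ≤ (s.card : ℝ) ^ m * ∑ a ∈ s, f a ^ (m + 1) := by
  rcases s.eq_empty_or_nonempty with rfl | hs
  · simp
  · have h := pow_sum_div_card_le_sum_pow (s := s) (f := f) hf m
    have hc : (0 : ℝ) < (s.card : ℝ) ^ m := by
      have : (0 : ℝ) < s.card := by exact_mod_cast hs.card_pos
      positivity
    rw [div_le_iff₀ hc] at h
    linarith

section main

variable {Λ : Type*} [Fintype Λ] [DecidableEq Λ] {A : Matrix (Tor N) (Tor N) ℝ}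
  {p : Λ → ℝ} {good : Λ} {ν : Λ → Measure ℝ} {e : (Tor N → Λ) → Tor N → ℝ}
  {κ : Type*} [Fintype κ] {F : κ → Tor N → ℝ} {K : ℝ} {Bl : Finset (Tor N)}

/-- **START, any functional**: if `G ≤ ψ (∑_{b ∈ Bl} FB1 b)` pointwise -/
theorem Av_le {G : (Tor N → Λ) → (Tor N → ℂ) → ℝ} {H : (Tor N → Λ) → ℝ}
    (hp : ∀ l, 0 ≤ p l) (hν : ∀ k, IsProbabilityMeasure (ν k)) (E : ℝ)
    (hG0 : ∀ l v, 0 ≤ G l (WV E (e l) v)) (hG : ∀ l v, G l (WV E (e l) v) ≤ H l) :
    AvG p ν E e G ≤ ∑ l : Tor N → Λ, (∏ x, p (l x)) * H l := by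
  haveI := hν
  unfold AvG
  refine Finset.sum_le_sum fun l _ => mul_le_mul_of_nonneg_left ?_
    (Finset.prod_nonneg fun x _ => hp _)
  unfold Ex
  refine (integral_mono_of_nonneg (Filter.Eventually.of_forall (hG0 l)) (integrable_const _)
    (Filter.Eventually.of_forall (hG l))).trans ?_
  simp

/-- **START, all moments of the energy of a block** -/
theorem start_pow (hs : A.IsSymm) (hA : ∀ x y, |A x y| ≤ AT N x y)
    (hp : ∀ l, 0 ≤ p l) (hp1 : ∑ l, p l = 1) (h1 : 1 - p good ≤ 1 / 8192)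
    (hν : ∀ k, IsProbabilityMeasure (ν k)) (E : ℝ)
    (he : ∀ l x, 0 < e l x) (hbig : ∀ l x, l x = good → 32 ≤ e l x)
    (hF : ∀ x y, ∑ k, (F k x - F k y) ^ 2 ≤ K ^ 2 * (nrm (x - y) : ℝ) ^ 2)
    (hBl : ∀ k, ∀ x ∉ Bl, ∀ y ∉ Bl, F k x = F k y) (m : ℕ) :
    AvG p ν E e (fun _ W => (∑ k, En A W (F k)) ^ (m + 1)) ≤
      cF m * (2 * K ^ 2 * Bl.card) ^ (m + 1) := by
  classical
  obtain ⟨B, hB⟩ : ∃ B : (Tor N → Λ) → Finset (Tor N),
      B = fun l => Finset.univ.filter fun x => l x ≠ good := ⟨_, rfl⟩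
  have hBm : ∀ l x, x ∈ B l ↔ l x ≠ good := by
    intro l x
    rw [hB]
    simp
  have him : ∀ l v x, (WV E (e l) v x).im < 0 := by
    intro l v x
    rw [WV_im2]
    linarith [he l x]
  have h0 : ∀ l v, 0 ≤ ∑ k, En A (WV E (e l) v) (F k) := fun l v =>
    Finset.sum_nonneg fun k _ => En_nonneg' (him l v) _
  have h3 : ∀ l v, ∑ k, En A (WV E (e l) v) (F k) ≤ 2 * K ^ 2 * ∑ b ∈ Bl, FB1 N b (B l) := by
    intro l v
    refine En_blk hs hA (him l v) (B l) (fun x hx => ?_) hF hBl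
    rw [WV_im2, neg_neg]
    refine hbig l x ?_
    by_contra hcon
    exact hx ((hBm l x).2 hcon)
  refine (Av_le (H := fun l => (2 * K ^ 2 * ∑ b ∈ Bl, FB1 N b (B l)) ^ (m + 1)) hp hν E
    (fun l v => pow_nonneg (h0 l v) _)
    (fun l v => pow_le_pow_left₀ (h0 l v) (h3 l v) _)).trans ?_
  calc ∑ l : Tor N → Λ, (∏ x, p (l x)) * (2 * K ^ 2 * ∑ b ∈ Bl, FB1 N b (B l)) ^ (m + 1)
      ≤ ∑ l : Tor N → Λ, (∏ x, p (l x)) * ((2 * K ^ 2) ^ (m + 1) *
        ((Bl.card : ℝ) ^ m * ∑ b ∈ Bl, FB1 N b (B l) ^ (m + 1))) := by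
        refine Finset.sum_le_sum fun l _ => mul_le_mul_of_nonneg_left ?_
          (Finset.prod_nonneg fun x _ => hp _)
        rw [mul_pow]
        exact mul_le_mul_of_nonneg_left
          (sum_pow_card Bl _ (fun b _ => FB1_nonneg b (B l)) m) (by positivity)
    _ = (2 * K ^ 2) ^ (m + 1) * ((Bl.card : ℝ) ^ m *
        ∑ b ∈ Bl, ∑ l : Tor N → Λ, (∏ x, p (l x)) * FB1 N b (B l) ^ (m + 1)) := by
        rw [Finset.sum_comm, Finset.mul_sum, Finset.mul_sum]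
        refine Finset.sum_congr rfl fun l _ => ?_
        rw [← Finset.mul_sum]
        ring
    _ ≤ (2 * K ^ 2) ^ (m + 1) * ((Bl.card : ℝ) ^ m * ∑ b ∈ Bl, cF m) := by
        refine mul_le_mul_of_nonneg_left (mul_le_mul_of_nonneg_left
          (Finset.sum_le_sum fun b _ => ?_) (by positivity)) (by positivity)
        exact FB1_pow_sum_labels b p hp hp1 good h1 (fun L x hx => (hBm L x).1 hx) m
    _ = cF m * (2 * K ^ 2 * Bl.card) ^ (m + 1) := by
        rw [Finset.sum_const, nsmul_eq_mul, mul_pow (2 * K ^ 2) (Bl.card : ℝ)]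
        ring

/-- **START, second moment** -/
theorem start_sq (hs : A.IsSymm) (hA : ∀ x y, |A x y| ≤ AT N x y)
    (hp : ∀ l, 0 ≤ p l) (hp1 : ∑ l, p l = 1) (h1 : 1 - p good ≤ 1 / 8192)
    (hν : ∀ k, IsProbabilityMeasure (ν k)) (E : ℝ)
    (he : ∀ l x, 0 < e l x) (hbig : ∀ l x, l x = good → 32 ≤ e l x)
    (hF : ∀ x y, ∑ k, (F k x - F k y) ^ 2 ≤ K ^ 2 * (nrm (x - y) : ℝ) ^ 2)
    (hBl : ∀ k, ∀ x ∉ Bl, ∀ y ∉ Bl, F k x = F k y) :
    AvG p ν E e (fun _ W => (∑ k, En A W (F k)) ^ 2) ≤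
      2 * 10 ^ 11 * (K ^ 2 * Bl.card) ^ 2 := by
  refine (start_pow hs hA hp hp1 h1 hν E he hbig hF hBl 1).trans ?_
  have h2 := mul_le_mul_of_nonneg_right cF_one
    (sq_nonneg (2 * K ^ 2 * (Bl.card : ℝ)))
  have h3 : 0 ≤ (K ^ 2 * (Bl.card : ℝ)) ^ 2 := sq_nonneg _
  calc cF 1 * (2 * K ^ 2 * (Bl.card : ℝ)) ^ (1 + 1)
      ≤ 4 * 10 ^ 10 * (2 * K ^ 2 * (Bl.card : ℝ)) ^ 2 := h2
    _ = (16 * 10 ^ 10) * (K ^ 2 * (Bl.card : ℝ)) ^ 2 := by ring
    _ ≤ 2 * 10 ^ 11 * (K ^ 2 * (Bl.card : ℝ)) ^ 2 :=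
        mul_le_mul_of_nonneg_right (by norm_num) h3

/-- **START, first moment of a block** -/
theorem start_one (hs : A.IsSymm) (hA : ∀ x y, |A x y| ≤ AT N x y)
    (hp : ∀ l, 0 ≤ p l) (hp1 : ∑ l, p l = 1) (h1 : 1 - p good ≤ 1 / 8192)
    (hν : ∀ k, IsProbabilityMeasure (ν k)) (E : ℝ)
    (he : ∀ l x, 0 < e l x) (hbig : ∀ l x, l x = good → 32 ≤ e l x)
    (hF : ∀ x y, ∑ k, (F k x - F k y) ^ 2 ≤ K ^ 2 * (nrm (x - y) : ℝ) ^ 2)
    (hBl : ∀ k, ∀ x ∉ Bl, ∀ y ∉ Bl, F k x = F k y) :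
    PhiG A p ν E F e ≤ 800 * (K ^ 2 * Bl.card) := by
  have h := start_pow hs hA hp hp1 h1 hν E he hbig hF hBl 0
  simp only [zero_add, pow_one] at h
  have h2 := mul_le_mul_of_nonneg_right cF_zero
    (by positivity : 0 ≤ 2 * K ^ 2 * (Bl.card : ℝ))
  calc PhiG A p ν E F e ≤ cF 0 * (2 * K ^ 2 * (Bl.card : ℝ)) := h
    _ ≤ 400 * (2 * K ^ 2 * (Bl.card : ℝ)) := h2
    _ = _ := by ring

/-- **START, functions of at most quadratic growth** -/
theorem start_theta (hs : A.IsSymm) (hA : ∀ x y, |A x y| ≤ AT N x y)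
    (hp : ∀ l, 0 ≤ p l) (hp1 : ∑ l, p l = 1) (h1 : 1 - p good ≤ 1 / 8192)
    (hν : ∀ k, IsProbabilityMeasure (ν k)) (E : ℝ)
    (he : ∀ l x, 0 < e l x) (hbig : ∀ l x, l x = good → 32 ≤ e l x)
    (hF : ∀ x y, ∑ k, (F k x - F k y) ^ 2 ≤ K ^ 2 * (nrm (x - y) : ℝ) ^ 2)
    (hBl : ∀ k, ∀ x ∉ Bl, ∀ y ∉ Bl, F k x = F k y)
    {Θ : ℝ → ℝ} {c1 c2 : ℝ} (hc1 : 0 ≤ c1) (hc2 : 0 ≤ c2) (hΘ0 : ∀ x, 0 ≤ x → 0 ≤ Θ x)
    (hΘ : ∀ x, 0 ≤ x → Θ x ≤ c1 * x + c2 * x ^ 2) :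
    AvG p ν E e (fun _ W => Θ (∑ k, En A W (F k))) ≤
      800 * c1 * (K ^ 2 * Bl.card) + 2 * 10 ^ 11 * c2 * (K ^ 2 * Bl.card) ^ 2 := by
  classical
  obtain ⟨B, hB⟩ : ∃ B : (Tor N → Λ) → Finset (Tor N),
      B = fun l => Finset.univ.filter fun x => l x ≠ good := ⟨_, rfl⟩
  have hBm : ∀ l x, x ∈ B l ↔ l x ≠ good := by
    intro l x
    rw [hB]
    simp
  have him : ∀ l v x, (WV E (e l) v x).im < 0 := by
    intro l v x
    rw [WV_im2]
    linarith [he l x]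
  have h0 : ∀ l v, 0 ≤ ∑ k, En A (WV E (e l) v) (F k) := fun l v =>
    Finset.sum_nonneg fun k _ => En_nonneg' (him l v) _
  have h3 : ∀ l v, ∑ k, En A (WV E (e l) v) (F k) ≤ 2 * K ^ 2 * ∑ b ∈ Bl, FB1 N b (B l) := by
    intro l v
    refine En_blk hs hA (him l v) (B l) (fun x hx => ?_) hF hBl
    rw [WV_im2, neg_neg]
    refine hbig l x ?_
    by_contra hcon
    exact hx ((hBm l x).2 hcon)
  refine (Av_le (H := fun l => c1 * (2 * K ^ 2 * ∑ b ∈ Bl, FB1 N b (B l)) +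
    c2 * (2 * K ^ 2 * ∑ b ∈ Bl, FB1 N b (B l)) ^ 2) hp hν E
    (fun l v => hΘ0 _ (h0 l v)) (fun l v => (hΘ _ (h0 l v)).trans ?_)).trans ?_
  · have h4 := h3 l v
    have h5 := pow_le_pow_left₀ (h0 l v) h4 2
    exact add_le_add (mul_le_mul_of_nonneg_left h4 hc1) (mul_le_mul_of_nonneg_left h5 hc2)
  have hmom : ∀ m : ℕ, ∑ l : Tor N → Λ, (∏ x, p (l x)) *
      (2 * K ^ 2 * ∑ b ∈ Bl, FB1 N b (B l)) ^ (m + 1) ≤
      cF m * (2 * K ^ 2 * Bl.card) ^ (m + 1) := by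
    intro m
    calc ∑ l : Tor N → Λ, (∏ x, p (l x)) * (2 * K ^ 2 * ∑ b ∈ Bl, FB1 N b (B l)) ^ (m + 1)
        ≤ ∑ l : Tor N → Λ, (∏ x, p (l x)) * ((2 * K ^ 2) ^ (m + 1) *
          ((Bl.card : ℝ) ^ m * ∑ b ∈ Bl, FB1 N b (B l) ^ (m + 1))) := by
          refine Finset.sum_le_sum fun l _ => mul_le_mul_of_nonneg_left ?_
            (Finset.prod_nonneg fun x _ => hp _)
          rw [mul_pow]
          exact mul_le_mul_of_nonneg_left
            (sum_pow_card Bl _ (fun b _ => FB1_nonneg b (B l)) m) (by positivity)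
      _ = (2 * K ^ 2) ^ (m + 1) * ((Bl.card : ℝ) ^ m *
          ∑ b ∈ Bl, ∑ l : Tor N → Λ, (∏ x, p (l x)) * FB1 N b (B l) ^ (m + 1)) := by
          rw [Finset.sum_comm, Finset.mul_sum, Finset.mul_sum]
          refine Finset.sum_congr rfl fun l _ => ?_
          rw [← Finset.mul_sum]
          ring
      _ ≤ (2 * K ^ 2) ^ (m + 1) * ((Bl.card : ℝ) ^ m * ∑ b ∈ Bl, cF m) := by
          refine mul_le_mul_of_nonneg_left (mul_le_mul_of_nonneg_left
            (Finset.sum_le_sum fun b _ => ?_) (by positivity)) (by positivity)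
          exact FB1_pow_sum_labels b p hp hp1 good h1 (fun L x hx => (hBm L x).1 hx) m
      _ = cF m * (2 * K ^ 2 * Bl.card) ^ (m + 1) := by
          rw [Finset.sum_const, nsmul_eq_mul, mul_pow (2 * K ^ 2) (Bl.card : ℝ)]
          ring
  have hm0 := hmom 0
  have hm1 := hmom 1
  simp only [zero_add, pow_one] at hm0
  have e4 : ∑ l : Tor N → Λ, (∏ x, p (l x)) * (c1 * (2 * K ^ 2 * ∑ b ∈ Bl, FB1 N b (B l)) +
      c2 * (2 * K ^ 2 * ∑ b ∈ Bl, FB1 N b (B l)) ^ 2) =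
      c1 * ∑ l : Tor N → Λ, (∏ x, p (l x)) * (2 * K ^ 2 * ∑ b ∈ Bl, FB1 N b (B l)) +
      c2 * ∑ l : Tor N → Λ, (∏ x, p (l x)) *
        (2 * K ^ 2 * ∑ b ∈ Bl, FB1 N b (B l)) ^ (1 + 1) := by
    rw [Finset.mul_sum, Finset.mul_sum, ← Finset.sum_add_distrib]
    refine Finset.sum_congr rfl fun l _ => ?_
    ring
  rw [e4]
  have hx : 0 ≤ K ^ 2 * (Bl.card : ℝ) := by positivity
  have h6 : cF 0 * (2 * K ^ 2 * (Bl.card : ℝ)) ≤ 800 * (K ^ 2 * Bl.card) := by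
    have := mul_le_mul_of_nonneg_right cF_zero (by positivity : 0 ≤ 2 * K ^ 2 * (Bl.card : ℝ))
    linarith
  have h7 : cF 1 * (2 * K ^ 2 * (Bl.card : ℝ)) ^ (1 + 1) ≤
      2 * 10 ^ 11 * (K ^ 2 * Bl.card) ^ 2 := by
    have h8 := mul_le_mul_of_nonneg_right cF_one (sq_nonneg (2 * K ^ 2 * (Bl.card : ℝ)))
    have h9 : 0 ≤ (K ^ 2 * (Bl.card : ℝ)) ^ 2 := sq_nonneg _
    calc cF 1 * (2 * K ^ 2 * (Bl.card : ℝ)) ^ (1 + 1)
        ≤ 4 * 10 ^ 10 * (2 * K ^ 2 * (Bl.card : ℝ)) ^ 2 := h8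
      _ = (16 * 10 ^ 10) * (K ^ 2 * (Bl.card : ℝ)) ^ 2 := by ring
      _ ≤ _ := mul_le_mul_of_nonneg_right (by norm_num) h9
  have h10 := mul_le_mul_of_nonneg_left (hm0.trans h6) hc1
  have h11 := mul_le_mul_of_nonneg_left (hm1.trans h7) hc2
  calc _ ≤ c1 * (800 * (K ^ 2 * (Bl.card : ℝ))) + c2 * (2 * 10 ^ 11 * (K ^ 2 * Bl.card) ^ 2) :=
        add_le_add h10 h11
    _ = _ := by ring

/-! ### the block functional `4 En f + En f²` -/

/-- the vector form of `4 En f + En f²` -/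
def Ff (f : Tor N → ℝ) : Fin 2 → Tor N → ℝ := ![fun x => 2 * f x, fun x => f x ^ 2]

theorem sum_En_Ff (W : Tor N → ℂ) (f : Tor N → ℝ) :
    ∑ k, En A W (Ff f k) = 4 * En A W f + En A W fun x => f x ^ 2 := by
  rw [Fin.sum_univ_two]
  simp only [Ff, Matrix.cons_val_zero, Matrix.cons_val_one]
  congr 1
  unfold En
  rw [Finset.mul_sum]
  refine Finset.sum_congr rfl fun x _ => ?_
  rw [Finset.mul_sum]
  refine Finset.sum_congr rfl fun y _ => ?_
  ring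

theorem Ff_lip {f : Tor N → ℝ} (hf1 : ∀ x, |f x| ≤ 1) {K : ℝ} (hK : 0 ≤ K)
    (hf : ∀ x y, |f x - f y| ≤ K * nrm (x - y)) (x y : Tor N) :
    ∑ k, (Ff f k x - Ff f k y) ^ 2 ≤ (3 * K) ^ 2 * (nrm (x - y) : ℝ) ^ 2 := by
  rw [Fin.sum_univ_two]
  simp only [Ff, Matrix.cons_val_zero, Matrix.cons_val_one]
  have h1 := hf x y
  have h2 : (f x - f y) ^ 2 ≤ (K * nrm (x - y)) ^ 2 := by
    rw [← sq_abs]
    exact pow_le_pow_left₀ (abs_nonneg _) h1 2
  have h3 := abs_le.1 (hf1 x)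
  have h4 := abs_le.1 (hf1 y)
  have h5 : (f x + f y) ^ 2 ≤ 4 := by nlinarith
  have h6 : (f x ^ 2 - f y ^ 2) ^ 2 = (f x - f y) ^ 2 * (f x + f y) ^ 2 := by ring
  have h7 : (f x - f y) ^ 2 * (f x + f y) ^ 2 ≤ (f x - f y) ^ 2 * 4 :=
    mul_le_mul_of_nonneg_left h5 (sq_nonneg _)
  have h8 : 0 ≤ (K * (nrm (x - y) : ℝ)) ^ 2 := sq_nonneg _
  calc (2 * f x - 2 * f y) ^ 2 + (f x ^ 2 - f y ^ 2) ^ 2
      ≤ 8 * (f x - f y) ^ 2 := by rw [h6]; nlinarith
    _ ≤ 9 * (K * nrm (x - y)) ^ 2 := by nlinarith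
    _ = _ := by ring

/-- **START for `Φ = 4 En f + En f²`, `|f| ≤ 1`, `f` Lipschitz with constant `K` and supported in
`Bl`, `K² |Bl| ≤ C`**: functions `Θ ≥ 0` of at most quadratic growth -/
theorem start_block (hs : A.IsSymm) (hA : ∀ x y, |A x y| ≤ AT N x y)
    (hp : ∀ l, 0 ≤ p l) (hp1 : ∑ l, p l = 1) (h1 : 1 - p good ≤ 1 / 8192)
    (hν : ∀ k, IsProbabilityMeasure (ν k)) (E : ℝ)
    (he : ∀ l x, 0 < e l x) (hbig : ∀ l x, l x = good → 32 ≤ e l x)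
    {f : Tor N → ℝ} (hf1 : ∀ x, |f x| ≤ 1) (hK : 0 ≤ K)
    (hf : ∀ x y, |f x - f y| ≤ K * nrm (x - y)) (hsupp : ∀ x ∉ Bl, f x = 0)
    {C : ℝ} (hC : K ^ 2 * Bl.card ≤ C)
    {Θ : ℝ → ℝ} {c1 c2 : ℝ} (hc1 : 0 ≤ c1) (hc2 : 0 ≤ c2) (hΘ0 : ∀ x, 0 ≤ x → 0 ≤ Θ x)
    (hΘ : ∀ x, 0 ≤ x → Θ x ≤ c1 * x + c2 * x ^ 2) :
    AvG p ν E e (fun _ W => Θ (4 * En A W f + En A W fun x => f x ^ 2)) ≤
      7200 * c1 * C + 2 * 10 ^ 13 * c2 * C ^ 2 := by
  have h := start_theta (F := Ff f) (K := 3 * K) (Bl := Bl) hs hA hp hp1 h1 hν E he hbig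
    (Ff_lip hf1 hK hf) (fun k x hx y hy => by
      fin_cases k
      · simp [Ff, hsupp x hx, hsupp y hy]
      · simp [Ff, hsupp x hx, hsupp y hy]) hc1 hc2 hΘ0 hΘ
  simp only [sum_En_Ff] at h
  refine h.trans ?_
  have hx : 0 ≤ K ^ 2 * (Bl.card : ℝ) := by positivity
  have e1 : (3 * K) ^ 2 * (Bl.card : ℝ) = 9 * (K ^ 2 * Bl.card) := by ring
  rw [e1]
  have h2 : (9 * (K ^ 2 * (Bl.card : ℝ))) ^ 2 ≤ 81 * C ^ 2 := by
    have := pow_le_pow_left₀ hx hC 2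
    nlinarith
  have h3 : 800 * c1 * (9 * (K ^ 2 * (Bl.card : ℝ))) ≤ 7200 * c1 * C := by
    have := mul_le_mul_of_nonneg_left hC hc1
    nlinarith
  have h4 : 2 * 10 ^ 11 * c2 * (9 * (K ^ 2 * (Bl.card : ℝ))) ^ 2 ≤
      2 * 10 ^ 13 * c2 * C ^ 2 := by
    have h5 := mul_le_mul_of_nonneg_left h2 hc2
    have h6 : 0 ≤ c2 * C ^ 2 := by positivity
    nlinarith
  exact add_le_add h3 h4

/-- **START for `psi_g(x) = x²/(x+g)`** -/
theorem start_psi (hs : A.IsSymm) (hA : ∀ x y, |A x y| ≤ AT N x y)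
    (hp : ∀ l, 0 ≤ p l) (hp1 : ∑ l, p l = 1) (h1 : 1 - p good ≤ 1 / 8192)
    (hν : ∀ k, IsProbabilityMeasure (ν k)) (E : ℝ)
    (he : ∀ l x, 0 < e l x) (hbig : ∀ l x, l x = good → 32 ≤ e l x)
    {f : Tor N → ℝ} (hf1 : ∀ x, |f x| ≤ 1) (hK : 0 ≤ K)
    (hf : ∀ x y, |f x - f y| ≤ K * nrm (x - y)) (hsupp : ∀ x ∉ Bl, f x = 0)
    {C : ℝ} (hC : K ^ 2 * Bl.card ≤ C) {g : ℝ} (hg : 0 < g) :
    AvG p ν E e (fun _ W => (4 * En A W f + En A W fun x => f x ^ 2) ^ 2 /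
      (4 * En A W f + (En A W fun x => f x ^ 2) + g)) ≤ 2 * 10 ^ 13 * C ^ 2 / g := by
  have h := start_block (Θ := fun x => x ^ 2 / (x + g)) (c1 := 0) (c2 := 1 / g) hs hA hp hp1 h1
    hν E he hbig hf1 hK hf hsupp hC le_rfl (by positivity) (fun x hx => by positivity)
    (fun x hx => by
      rw [zero_mul, zero_add, one_div, inv_mul_eq_div]
      exact div_le_div_of_nonneg_left (sq_nonneg _) hg (by linarith))
  refine h.trans (le_of_eq ?_)
  ring

/-- **START for `Φ²`** -/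
theorem start_block_sq (hs : A.IsSymm) (hA : ∀ x y, |A x y| ≤ AT N x y)
    (hp : ∀ l, 0 ≤ p l) (hp1 : ∑ l, p l = 1) (h1 : 1 - p good ≤ 1 / 8192)
    (hν : ∀ k, IsProbabilityMeasure (ν k)) (E : ℝ)
    (he : ∀ l x, 0 < e l x) (hbig : ∀ l x, l x = good → 32 ≤ e l x)
    {f : Tor N → ℝ} (hf1 : ∀ x, |f x| ≤ 1) (hK : 0 ≤ K)
    (hf : ∀ x y, |f x - f y| ≤ K * nrm (x - y)) (hsupp : ∀ x ∉ Bl, f x = 0)
    {C : ℝ} (hC : K ^ 2 * Bl.card ≤ C) :
    AvG p ν E e (fun _ W => (4 * En A W f + En A W fun x => f x ^ 2) ^ 2) ≤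
      2 * 10 ^ 13 * C ^ 2 := by
  have h := start_block (Θ := fun x => x ^ 2) (c1 := 0) (c2 := 1) hs hA hp hp1 h1
    hν E he hbig hf1 hK hf hsupp hC le_rfl zero_le_one (fun x hx => by positivity)
    (fun x hx => by linarith)
  refine h.trans (le_of_eq ?_)
  ring

end main

end P365T2.H536
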