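import Vale.Agent.P365.T2.H536.Peierls2

/-!
# P365-T2, X-START2 (2): a summable weight on the torus, powers of the START majorant
-/

set_option linter.all false

namespace P365T2.H536

open Finset MeasureTheory P365T1 P365L P365O

/-! ### a summable weight -/

theorem sum_inv_sq (m : ℕ) : ∑ n ∈ range m, 1 / (1 + (n : ℝ)) ^ 2 ≤ 2 := by
  have h : ∀ m : ℕ, ∑ n ∈ range (m + 1), 1 / (1 + (n : ℝ)) ^ 2 ≤ 2 - 1 / (1 + (m : ℝ)) := by
    intro m
    induction m with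
    | zero => norm_num
    | succ m ih =>
      rw [Finset.sum_range_succ]
      have hm : (0 : ℝ) < 1 + m := by positivity
      have h2 : 1 / (1 + ((m + 1 : ℕ) : ℝ)) ^ 2 ≤ 1 / (1 + (m : ℝ)) - 1 / (1 + ((m + 1 : ℕ) : ℝ)) := by
        push_cast
        rw [div_sub_div _ _ hm.ne' (by positivity), div_le_div_iff₀ (by positivity) (by positivity)]
        nlinarith
      linarith
  cases m with
  | zero => norm_num
  | succ m =>
    have := h m
    have h3 : (0 : ℝ) < 1 / (1 + (m : ℝ)) := by positivity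
    linarith

theorem sum_Z (N : ℕ) [NeZero N] :
    ∑ x : ZMod N, 1 / (1 + (x.valMinAbs.natAbs : ℝ)) ^ 2 ≤ 4 := by
  classical
  have key : ∀ s : Finset (ZMod N), Set.InjOn (fun x : ZMod N => x.valMinAbs.natAbs) s →
      ∑ x ∈ s, 1 / (1 + (x.valMinAbs.natAbs : ℝ)) ^ 2 ≤ 2 := by
    intro s hs
    have h1 : ∑ x ∈ s, 1 / (1 + (x.valMinAbs.natAbs : ℝ)) ^ 2 =
        ∑ n ∈ s.image (fun x : ZMod N => x.valMinAbs.natAbs), 1 / (1 + (n : ℝ)) ^ 2 :=
      (Finset.sum_image (f := fun n : ℕ => 1 / (1 + (n : ℝ)) ^ 2) hs).symm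
    rw [h1]
    refine (Finset.sum_le_sum_of_subset_of_nonneg (t := range (N + 1)) ?_
      fun _ _ _ => by positivity).trans (sum_inv_sq (N + 1))
    intro n hn
    rw [Finset.mem_image] at hn
    obtain ⟨x, -, rfl⟩ := hn
    rw [Finset.mem_range]
    have := ZMod.natAbs_valMinAbs_le x
    omega
  rw [← Finset.sum_filter_add_sum_filter_not Finset.univ (fun x : ZMod N => 0 ≤ x.valMinAbs)]
  have h1 := key (Finset.univ.filter fun x : ZMod N => 0 ≤ x.valMinAbs) (by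
    intro x hx y hy hxy
    simp only [Finset.coe_filter, Finset.mem_univ, true_and, Set.mem_setOf_eq] at hx hy
    have h2 : x.valMinAbs.natAbs = y.valMinAbs.natAbs := hxy
    exact ZMod.injective_valMinAbs (by omega))
  have h2 := key (Finset.univ.filter fun x : ZMod N => ¬ 0 ≤ x.valMinAbs) (by
    intro x hx y hy hxy
    simp only [Finset.coe_filter, Finset.mem_univ, true_and, Set.mem_setOf_eq] at hx hy
    have h2 : x.valMinAbs.natAbs = y.valMinAbs.natAbs := hxy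
    exact ZMod.injective_valMinAbs (by omega))
  linarith

variable {N : ℕ} [NeZero N]

/-- spatial weight -/
noncomputable def cw (x : Tor N) : ℝ :=
  1 / (1 + (x.1.valMinAbs.natAbs : ℝ)) ^ 2 * (1 / (1 + (x.2.valMinAbs.natAbs : ℝ)) ^ 2)

theorem cw_pos (x : Tor N) : 0 < cw x := by unfold cw; positivity

theorem inv_cw_le (x : Tor N) : 1 / cw x ≤ (1 + (nrm x : ℝ)) ^ 4 := by
  have h1 : (x.1.valMinAbs.natAbs : ℝ) ≤ nrm x := by
    exact_mod_cast (le_max_left _ _ : x.1.valMinAbs.natAbs ≤ nrm x)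
  have h2 : (x.2.valMinAbs.natAbs : ℝ) ≤ nrm x := by
    exact_mod_cast (le_max_right _ _ : x.2.valMinAbs.natAbs ≤ nrm x)
  have e : 1 / cw x = (1 + (x.1.valMinAbs.natAbs : ℝ)) ^ 2 *
      (1 + (x.2.valMinAbs.natAbs : ℝ)) ^ 2 := by
    unfold cw
    field_simp
  rw [e]
  calc (1 + (x.1.valMinAbs.natAbs : ℝ)) ^ 2 * (1 + (x.2.valMinAbs.natAbs : ℝ)) ^ 2
      ≤ (1 + (nrm x : ℝ)) ^ 2 * (1 + (nrm x : ℝ)) ^ 2 := by gcongr
    _ = _ := by ring

theorem sum_cw (N : ℕ) [NeZero N] : ∑ x : Tor N, cw x ≤ 16 := by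
  have e : ∑ x : Tor N, cw x = (∑ x : ZMod N, 1 / (1 + (x.valMinAbs.natAbs : ℝ)) ^ 2) *
      ∑ x : ZMod N, 1 / (1 + (x.valMinAbs.natAbs : ℝ)) ^ 2 := by
    rw [Finset.sum_mul_sum, ← Finset.sum_product']
    rfl
  rw [e]
  have h := sum_Z N
  have h0 : 0 ≤ ∑ x : ZMod N, 1 / (1 + (x.valMinAbs.natAbs : ℝ)) ^ 2 :=
    Finset.sum_nonneg fun _ _ => by positivity
  nlinarith

theorem sum_cw_sub (b : Tor N) : ∑ a : Tor N, cw (a - b) ≤ 16 := by
  rw [show ∑ a : Tor N, cw (a - b) = ∑ x : Tor N, cw x from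
    Equiv.sum_comp (Equiv.subRight b) cw]
  exact sum_cw N

/-- Jensen with the weight `cw` -/
theorem sum_pow_le (b : Tor N) (Y : Tor N → ℝ) (hY : ∀ a, 0 ≤ Y a) (m : ℕ) :
    (∑ a, Y a) ^ (m + 1) ≤ 16 ^ m * ∑ a, Y a ^ (m + 1) * (1 + (nrm (a - b) : ℝ)) ^ (4 * m) := by
  classical
  obtain ⟨S, hS⟩ : ∃ S : ℝ, S = ∑ a : Tor N, cw (a - b) := ⟨_, rfl⟩
  have hS0 : 0 < S := by
    rw [hS]
    exact Finset.sum_pos (fun a _ => cw_pos _) ⟨b, Finset.mem_univ b⟩
  have hS16 : S ≤ 16 := by rw [hS]; exact sum_cw_sub b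
  have h1 := Real.pow_arith_mean_le_arith_mean_pow (Finset.univ : Finset (Tor N))
    (fun a => cw (a - b) / S) (fun a => S * Y a / cw (a - b))
    (fun a _ => div_nonneg (cw_pos _).le hS0.le)
    (by rw [← Finset.sum_div, ← hS, div_self hS0.ne'])
    (fun a _ => div_nonneg (mul_nonneg hS0.le (hY a)) (cw_pos _).le) (m + 1)
  have e1 : ∑ a : Tor N, cw (a - b) / S * (S * Y a / cw (a - b)) = ∑ a, Y a := by
    refine Finset.sum_congr rfl fun a _ => ?_
    have := (cw_pos (a - b)).ne'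
    have := hS0.ne'
    field_simp
  rw [e1] at h1
  refine h1.trans ?_
  rw [Finset.mul_sum]
  refine Finset.sum_le_sum fun a _ => ?_
  have hc := cw_pos (a - b)
  have e2 : cw (a - b) / S * (S * Y a / cw (a - b)) ^ (m + 1) =
      S ^ m * (Y a ^ (m + 1) * (1 / cw (a - b)) ^ m) := by
    have h3 := hc.ne'
    have h4 := hS0.ne'
    rw [div_pow, mul_pow, pow_succ S m, pow_succ (cw (a - b)) m, one_div, inv_pow]
    field_simp
  rw [e2]
  have h5 : (1 / cw (a - b)) ^ m ≤ (1 + (nrm (a - b) : ℝ)) ^ (4 * m) := by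
    rw [pow_mul]
    exact pow_le_pow_left₀ (by positivity) (inv_cw_le _) m
  have h6 : 0 ≤ Y a ^ (m + 1) := pow_nonneg (hY a) _
  calc S ^ m * (Y a ^ (m + 1) * (1 / cw (a - b)) ^ m)
      ≤ 16 ^ m * (Y a ^ (m + 1) * (1 + (nrm (a - b) : ℝ)) ^ (4 * m)) := by
        gcongr

end P365T2.H536
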